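import Vale.Agent.P325.H111.K2.Stmts

/-!
# Package F1a: the high degree part of a sign function on the cube

The derivative of `s ↦ ∑ S, s ^ #S * fc f S ^ 2` at `s` in `(0, 1)` is at most the expected size of
the gradient of `f` divided by `√(1 - s ^ 2)`, because the gradient of the noisy version of `f` has
size at most `s / √(1 - s ^ 2)` at every point (inequality of Bessel for the characters of degree one
of a biased measure).
-/

namespace Vale.Agent.P325.H937.K2

open Finset Vale.Agent.P325.K2

theorem sg_mul_self (b : Bool) : sg b * sg b = 1 := by cases b <;> simp [sg]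

theorem sg_not (b : Bool) : sg (!b) = - sg b := by cases b <;> simp [sg]

section

variable {ι : Type} [Fintype ι] [DecidableEq ι]

/-- The average of a product of functions of single coordinates. -/
theorem Ex_prod_coord (a : ι → Bool → ℝ) :
    (Ex fun y : ι → Bool => ∏ i, a i (y i)) = ∏ i, ((a i true + a i false) / 2) := by
  have h : ∑ y : ι → Bool, ∏ i, a i (y i) = ∏ i, (a i true + a i false) := by
    have := Finset.prod_univ_sum (fun _ : ι => (univ : Finset Bool)) (fun i b => a i b)
    simp only [Fintype.sum_bool, Fintype.piFinset_univ] at this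
    exact this.symm
  rw [Ex, h, Finset.prod_div_distrib]
  simp

omit [Fintype ι] in
theorem flp_flp (x : ι → Bool) (i : ι) : flp (flp x i) i = x := by
  simp [flp]

/-- The change of a bit as an equivalence. -/
def flpE (i : ι) : (ι → Bool) ≃ (ι → Bool) where
  toFun x := flp x i
  invFun x := flp x i
  left_inv x := flp_flp x i
  right_inv x := flp_flp x i

omit [Fintype ι] in
theorem chi_flp {S : Finset ι} {i : ι} (hi : i ∈ S) (x : ι → Bool) :
    chi S (flp x i) = - chi S x := by
  unfold chi
  rw [← Finset.mul_prod_erase S _ hi, ← Finset.mul_prod_erase S (fun j => sg (x j)) hi]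
  have h1 : sg (flp x i i) = - sg (x i) := by
    rw [flp, Function.update_self, sg_not]
  have h2 : ∏ j ∈ S.erase i, sg (flp x i j) = ∏ j ∈ S.erase i, sg (x j) := by
    refine Finset.prod_congr rfl fun j hj => ?_
    rw [flp, Function.update_of_ne (Finset.ne_of_mem_erase hj)]
  rw [h1, h2]
  ring

/-- The derivative of a function in the direction of a coordinate. -/
noncomputable def dd (f : (ι → Bool) → ℝ) (i : ι) (x : ι → Bool) : ℝ := (f x - f (flp x i)) / 2

theorem fc_dd (f : (ι → Bool) → ℝ) {S : Finset ι} {i : ι} (hi : i ∈ S) :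
    fc f S = Ex fun x => dd f i x * chi S x := by
  have h1 : (Ex fun x => f (flp x i) * chi S x) = - fc f S := by
    rw [← Ex_equiv (flpE i)]
    change (Ex fun x => f (flp (flp x i) i) * chi S (flp x i)) = _
    simp only [flp_flp, chi_flp hi, mul_neg]
    rw [Ex_neg, fc]
  have h2 : (Ex fun x => dd f i x * chi S x) =
      (Ex fun x => f x * chi S x) * (1 / 2) - (Ex fun x => f (flp x i) * chi S x) * (1 / 2) := by
    rw [← Ex_mul_const, ← Ex_mul_const, ← Ex_sub]
    refine Ex_congr fun x => ?_
    unfold dd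
    ring
  rw [h2, h1, fc]
  ring

/-- The density of the biased measure. -/
noncomputable def wt (s : ℝ) (x y : ι → Bool) : ℝ := ∏ j, (1 + s * (sg (x j) * sg (y j)))

/-- The part of the noisy version of `f` which depends on the coordinate `i`. -/
noncomputable def bb (f : (ι → Bool) → ℝ) (s : ℝ) (x : ι → Bool) (i : ι) : ℝ :=
  Ex fun y => f y * wt s x y * (sg (x i) * sg (y i) - s)

theorem sum_mem_prod (c : ι → ℝ) (i : ι) :
    (∑ S : Finset ι, if i ∈ S then ∏ j ∈ S, c j else 0) =
      ∏ j, (c j + if j = i then 0 else 1) := by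
  rw [Finset.prod_add, Finset.powerset_univ]
  refine Finset.sum_congr rfl fun S _ => ?_
  split_ifs with h
  · rw [Finset.prod_eq_one (s := univ \ S), mul_one]
    intro j hj
    rw [if_neg]
    rintro rfl
    exact (Finset.mem_sdiff.1 hj).2 h
  · rw [Finset.prod_eq_zero (s := univ \ S) (i := i), mul_zero]
    · simp [h]
    · simp

theorem prod_if_eq (s : ℝ) (x y : ι → Bool) (i : ι) :
    (1 - s ^ 2) * ∏ j, (s * (sg (x j) * sg (y j)) + if j = i then 0 else 1) =
      s * (wt s x y * (sg (x i) * sg (y i) - s)) := by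
  unfold wt
  rw [← Finset.mul_prod_erase univ _ (Finset.mem_univ i),
    ← Finset.mul_prod_erase univ (fun j => 1 + s * (sg (x j) * sg (y j))) (Finset.mem_univ i)]
  have h2 : ∏ j ∈ univ.erase i, (s * (sg (x j) * sg (y j)) + if j = i then 0 else 1) =
      ∏ j ∈ univ.erase i, (1 + s * (sg (x j) * sg (y j))) := by
    refine Finset.prod_congr rfl fun j hj => ?_
    rw [if_neg (Finset.ne_of_mem_erase hj), add_comm]
  rw [h2, if_pos rfl, add_zero]
  have h3 : (sg (x i) * sg (y i)) * (sg (x i) * sg (y i)) = 1 := by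
    have := sg_mul_self (x i)
    have := sg_mul_self (y i)
    calc _ = (sg (x i) * sg (x i)) * (sg (y i) * sg (y i)) := by ring
      _ = 1 := by rw [sg_mul_self, sg_mul_self, one_mul]
  generalize sg (x i) * sg (y i) = z at h3 ⊢
  generalize ∏ j ∈ univ.erase i, (1 + s * (sg (x j) * sg (y j))) = P
  linear_combination (- s ^ 2 * P) * h3

theorem bb_eq (f : (ι → Bool) → ℝ) (s : ℝ) (x : ι → Bool) (i : ι) :
    (1 - s ^ 2) * (∑ S : Finset ι, if i ∈ S then s ^ #S * fc f S * chi S x else 0) =
      s * bb f s x i := by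
  have h1 : (∑ S : Finset ι, if i ∈ S then s ^ #S * fc f S * chi S x else 0) =
      Ex fun y => f y * ∏ j, (s * (sg (x j) * sg (y j)) + if j = i then 0 else 1) := by
    have h2 : ∀ S : Finset ι, (if i ∈ S then s ^ #S * fc f S * chi S x else 0) =
        Ex fun y => f y * (if i ∈ S then ∏ j ∈ S, (s * (sg (x j) * sg (y j))) else 0) := by
      intro S
      split_ifs with h
      · have : ∀ y : ι → Bool, f y * ∏ j ∈ S, (s * (sg (x j) * sg (y j))) =
            (s ^ #S * chi S x) * (f y * chi S y) := by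
          intro y
          rw [Finset.prod_mul_distrib, Finset.prod_mul_distrib, Finset.prod_const]
          unfold chi
          ring
        simp only [this]
        rw [Ex_const_mul, fc]
        ring
      · simp only [mul_zero]
        simp [Ex]
    simp only [h2]
    rw [← Ex_sum]
    refine Ex_congr fun y => ?_
    rw [← Finset.mul_sum, sum_mem_prod]
  rw [h1, bb, ← Ex_const_mul, ← Ex_const_mul]
  refine Ex_congr fun y => ?_
  have := prod_if_eq s x y i
  linear_combination (f y) * this

omit [DecidableEq ι] in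
theorem wt_nonneg {s : ℝ} (h0 : 0 ≤ s) (h1 : s ≤ 1) (x y : ι → Bool) : 0 ≤ wt s x y := by
  refine Finset.prod_nonneg fun j _ => ?_
  have h2 : -1 ≤ sg (x j) * sg (y j) := by
    cases x j <;> cases y j <;> simp [sg]
  nlinarith

theorem Ex_wt (s : ℝ) (x : ι → Bool) : (Ex fun y => wt s x y) = 1 := by
  unfold wt
  rw [Ex_prod_coord fun j b => 1 + s * (sg (x j) * sg b)]
  refine Finset.prod_eq_one fun j _ => ?_
  have h : sg true = 1 ∧ sg false = -1 := by simp [sg]
  rw [h.1, h.2]
  ring

/-- The correlations of the characters of degree one of the biased measure. -/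
theorem Ex_wt_mul (s : ℝ) (x : ι → Bool) (i j : ι) :
    (Ex fun y => wt s x y * ((sg (x i) * sg (y i) - s) * (sg (x j) * sg (y j) - s))) =
      if i = j then 1 - s ^ 2 else 0 := by
  have h1 : ∀ y : ι → Bool, wt s x y * ((sg (x i) * sg (y i) - s) * (sg (x j) * sg (y j) - s)) =
      ∏ k, ((1 + s * (sg (x k) * sg (y k))) * (if k = i then sg (x k) * sg (y k) - s else 1) *
        (if k = j then sg (x k) * sg (y k) - s else 1)) := by
    intro y
    rw [Finset.prod_mul_distrib, Finset.prod_mul_distrib, Finset.prod_ite_eq', Finset.prod_ite_eq',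
      if_pos (Finset.mem_univ i), if_pos (Finset.mem_univ j), wt, mul_assoc]
  simp only [h1]
  rw [Ex_prod_coord fun k b => (1 + s * (sg (x k) * sg b)) *
    (if k = i then sg (x k) * sg b - s else 1) * (if k = j then sg (x k) * sg b - s else 1)]
  split_ifs with h
  · subst h
    rw [Finset.prod_eq_single i]
    · simp only [if_true]
      cases x i <;> simp [sg] <;> ring
    · intro k _ hk
      have h : sg true = 1 ∧ sg false = -1 := by simp [sg]
      rw [if_neg hk, if_neg hk, h.1, h.2]
      ring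
    · intro h
      exact absurd (Finset.mem_univ i) h
  · refine Finset.prod_eq_zero (Finset.mem_univ i) ?_
    simp only [if_true, if_neg h]
    cases x i <;> simp [sg] <;> ring

/-- The inequality of Bessel. -/
theorem bessel {f : (ι → Bool) → ℝ} (hf : IsSign f) {s : ℝ} (h0 : 0 ≤ s) (h1 : s < 1)
    (x : ι → Bool) : ∑ i, bb f s x i ^ 2 ≤ 1 - s ^ 2 := by
  set b := bb f s x with hb
  set β := ∑ i, b i ^ 2 with hβ
  have hs : 0 < 1 - s ^ 2 := by nlinarith
  have e1 : (Ex fun y => f y * wt s x y * ∑ i, b i * (sg (x i) * sg (y i) - s)) = β := by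
    have : ∀ y : ι → Bool, f y * wt s x y * ∑ i, b i * (sg (x i) * sg (y i) - s) =
        ∑ i, b i * (f y * wt s x y * (sg (x i) * sg (y i) - s)) := by
      intro y
      rw [Finset.mul_sum]
      refine Finset.sum_congr rfl fun i _ => ?_
      ring
    simp only [this]
    rw [Ex_sum, hβ]
    refine Finset.sum_congr rfl fun i _ => ?_
    rw [Ex_const_mul, hb, bb]
    ring
  have e2 : (Ex fun y => wt s x y * (∑ i, b i * (sg (x i) * sg (y i) - s)) ^ 2) =
      (1 - s ^ 2) * β := by
    have : ∀ y : ι → Bool, wt s x y * (∑ i, b i * (sg (x i) * sg (y i) - s)) ^ 2 =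
        ∑ i, ∑ j, (b i * b j) *
          (wt s x y * ((sg (x i) * sg (y i) - s) * (sg (x j) * sg (y j) - s))) := by
      intro y
      rw [sq, Finset.sum_mul_sum, Finset.mul_sum]
      refine Finset.sum_congr rfl fun i _ => ?_
      rw [Finset.mul_sum]
      refine Finset.sum_congr rfl fun j _ => ?_
      ring
    simp only [this]
    rw [Ex_sum, hβ, Finset.mul_sum]
    refine Finset.sum_congr rfl fun i _ => ?_
    rw [Ex_sum]
    simp only [Ex_const_mul, Ex_wt_mul]
    simp only [mul_ite, mul_zero, Finset.sum_ite_eq, Finset.mem_univ, if_true]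
    ring
  have e3 : 0 ≤ Ex fun y => wt s x y * (∑ i, b i * (sg (x i) * sg (y i) - s) - β * f y) ^ 2 :=
    Ex_nonneg fun y => mul_nonneg (wt_nonneg h0 h1.le x y) (sq_nonneg _)
  have e4 : (Ex fun y => wt s x y * (∑ i, b i * (sg (x i) * sg (y i) - s) - β * f y) ^ 2) =
      (1 - s ^ 2) * β - 2 * β * β + β ^ 2 * 1 := by
    have e5 : ∀ y, wt s x y * (∑ i, b i * (sg (x i) * sg (y i) - s) - β * f y) ^ 2 =
        wt s x y * (∑ i, b i * (sg (x i) * sg (y i) - s)) ^ 2 -
          2 * β * (f y * wt s x y * ∑ i, b i * (sg (x i) * sg (y i) - s)) +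
          β ^ 2 * wt s x y := by
      intro y
      have hfy : f y ^ 2 = 1 := by
        rcases hf y with h | h <;> rw [h] <;> norm_num
      linear_combination (β ^ 2 * wt s x y) * hfy
    simp only [e5]
    rw [Ex_add, Ex_sub, Ex_const_mul, Ex_const_mul, e1, e2, Ex_wt]
  rw [e4] at e3
  have hβ0 : 0 ≤ β := Finset.sum_nonneg fun i _ => sq_nonneg _
  rcases hβ0.eq_or_lt with h | h
  · rw [← h]; exact hs.le
  · have : 0 ≤ β * (1 - s ^ 2 - β) := by nlinarith
    have := nonneg_of_mul_nonneg_right this h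
    linarith

theorem dd_sq {f : (ι → Bool) → ℝ} (hf : IsSign f) (x : ι → Bool) :
    ∑ i, dd f i x ^ 2 = #(piv f x) := by
  classical
  rw [piv, Finset.card_filter, Nat.cast_sum]
  refine Finset.sum_congr rfl fun i _ => ?_
  rcases hf x with h | h <;> rcases hf (flp x i) with h' | h' <;> simp [dd, h, h'] <;> norm_num

/-- The derivative of the noise stability. -/
theorem key {f : (ι → Bool) → ℝ} (hf : IsSign f) {s : ℝ} (h0 : 0 < s) (h1 : s < 1) :
    (∑ S : Finset ι, (#S : ℝ) * s ^ (#S - 1) * fc f S ^ 2) * Real.sqrt (1 - s) ≤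
      Ex fun x => Real.sqrt #(piv f x) := by
  have hs : 0 < 1 - s ^ 2 := by nlinarith
  have e1 : s * (∑ S : Finset ι, (#S : ℝ) * s ^ (#S - 1) * fc f S ^ 2) * (1 - s ^ 2) =
      s * Ex fun x => ∑ i, dd f i x * bb f s x i := by
    have h2 : s * (∑ S : Finset ι, (#S : ℝ) * s ^ (#S - 1) * fc f S ^ 2) =
        Ex fun x => ∑ i, dd f i x *
          (∑ S : Finset ι, if i ∈ S then s ^ #S * fc f S * chi S x else 0) := by
      have h3 : ∀ S : Finset ι, s * ((#S : ℝ) * s ^ (#S - 1) * fc f S ^ 2) =
          ∑ i, Ex fun x => if i ∈ S then (s ^ #S * fc f S) * (dd f i x * chi S x) else 0 := by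
        intro S
        have h4 : ∀ i, (Ex fun x => if i ∈ S then (s ^ #S * fc f S) * (dd f i x * chi S x) else 0) =
            if i ∈ S then s ^ #S * fc f S ^ 2 else 0 := by
          intro i
          split_ifs with h
          · rw [Ex_const_mul, ← fc_dd f h]
            ring
          · simp [Ex]
        simp only [h4]
        rw [Finset.sum_ite_mem, Finset.univ_inter, Finset.sum_const, nsmul_eq_mul]
        rcases Nat.eq_zero_or_pos (#S) with h | h
        · simp [h]
        · have : s ^ #S = s * s ^ (#S - 1) := by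
            rw [← pow_succ']
            congr 1
            omega
          rw [this]
          ring
      rw [Finset.mul_sum]
      simp only [h3]
      rw [Finset.sum_comm]
      simp only [← Ex_sum]
      refine Ex_congr fun x => ?_
      refine Finset.sum_congr rfl fun i _ => ?_
      rw [Finset.mul_sum]
      refine Finset.sum_congr rfl fun S _ => ?_
      split_ifs
      · ring
      · rw [mul_zero]
    rw [h2, ← Ex_mul_const, ← Ex_const_mul]
    refine Ex_congr fun x => ?_
    rw [Finset.sum_mul, Finset.mul_sum]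
    refine Finset.sum_congr rfl fun i _ => ?_
    have := bb_eq f s x i
    linear_combination (dd f i x) * this
  have e2 : ∀ x, ∑ i, dd f i x * bb f s x i ≤ Real.sqrt (1 - s ^ 2) * Real.sqrt #(piv f x) := by
    intro x
    have h2 := Finset.sum_mul_sq_le_sq_mul_sq univ (fun i => dd f i x) (fun i => bb f s x i)
    rw [dd_sq hf] at h2
    rw [← Real.sqrt_mul hs.le]
    refine Real.le_sqrt_of_sq_le (h2.trans ?_)
    rw [mul_comm]
    exact mul_le_mul_of_nonneg_right (bessel hf h0.le h1 x) (Nat.cast_nonneg _)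
  have e3 : (∑ S : Finset ι, (#S : ℝ) * s ^ (#S - 1) * fc f S ^ 2) * (1 - s ^ 2) ≤
      Real.sqrt (1 - s ^ 2) * Ex fun x => Real.sqrt #(piv f x) := by
    have : (∑ S : Finset ι, (#S : ℝ) * s ^ (#S - 1) * fc f S ^ 2) * (1 - s ^ 2) =
        Ex fun x => ∑ i, dd f i x * bb f s x i := by
      have := e1
      rw [mul_assoc] at this
      exact mul_left_cancel₀ h0.ne' this
    rw [this, ← Ex_const_mul]
    exact Ex_mono e2
  set Φ := ∑ S : Finset ι, (#S : ℝ) * s ^ (#S - 1) * fc f S ^ 2 with hΦ
  have hΦ0 : 0 ≤ Φ := Finset.sum_nonneg fun S _ => by positivity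
  have hq : 0 < Real.sqrt (1 - s ^ 2) := Real.sqrt_pos.2 hs
  have e4 : Φ * Real.sqrt (1 - s ^ 2) ≤ Ex fun x => Real.sqrt #(piv f x) := by
    have h5 : Φ * (1 - s ^ 2) = Real.sqrt (1 - s ^ 2) * (Φ * Real.sqrt (1 - s ^ 2)) := by
      nth_rewrite 1 [← Real.mul_self_sqrt hs.le]
      ring
    rw [h5] at e3
    exact le_of_mul_le_mul_left e3 hq
  refine le_trans (mul_le_mul_of_nonneg_left (Real.sqrt_le_sqrt ?_) hΦ0) e4
  nlinarith

theorem stab_le {f : (ι → Bool) → ℝ} (hf : IsSign f) {s : ℝ} (h0 : 0 ≤ s) (h1 : s ≤ 1) :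
    (∑ S : Finset ι, fc f S ^ 2) ≤ (∑ S : Finset ι, s ^ #S * fc f S ^ 2) +
      2 * (Ex fun x => Real.sqrt #(piv f x)) * Real.sqrt (1 - s) := by
  set E := Ex fun x => Real.sqrt #(piv f x) with hE
  set G : ℝ → ℝ := fun t => (∑ S : Finset ι, t ^ #S * fc f S ^ 2) + 2 * E * Real.sqrt (1 - t)
    with hG
  have hder : ∀ t ∈ Set.Ioo s 1, HasDerivAt G
      ((∑ S : Finset ι, (#S : ℝ) * t ^ (#S - 1) * fc f S ^ 2) + 2 * E * (-1 / (2 * Real.sqrt (1 - t)))) t := by
    intro t ht
    refine HasDerivAt.add ?_ ?_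
    · refine HasDerivAt.fun_sum fun S _ => ?_
      exact (hasDerivAt_pow (#S) t).mul_const _
    · refine HasDerivAt.const_mul _ ?_
      have h2 : HasDerivAt (fun t : ℝ => 1 - t) (-1) t := by
        simpa using (hasDerivAt_id t).const_sub 1
      exact h2.sqrt (by linarith [ht.2])
  have hcont : Continuous G := by
    rw [hG]
    fun_prop
  have hanti : AntitoneOn G (Set.Icc s 1) := by
    refine antitoneOn_of_deriv_nonpos (convex_Icc s 1) hcont.continuousOn ?_ ?_
    · intro t ht
      rw [interior_Icc] at ht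
      exact (hder t ht).differentiableAt.differentiableWithinAt
    · intro t ht
      rw [interior_Icc] at ht
      rw [(hder t ht).deriv]
      have h2 := key hf (h0.trans_lt ht.1) ht.2
      have h3 : 0 < Real.sqrt (1 - t) := Real.sqrt_pos.2 (by linarith [ht.2])
      have h4 : 2 * E * (-1 / (2 * Real.sqrt (1 - t))) = - (E / Real.sqrt (1 - t)) := by
        field_simp
      rw [h4]
      rw [← le_div_iff₀ h3] at h2
      linarith
  have h2 := hanti (Set.left_mem_Icc.2 h1) (Set.right_mem_Icc.2 h1) h1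
  simpa [hG] using h2

end

/-- Package F1a. -/
theorem tailThm : TailThm := by
  refine ⟨4, ?_⟩
  intro ι _ _ f hf k hk
  set E := Ex fun x => Real.sqrt #(piv f x) with hE
  have hk0 : (0 : ℝ) < k := by exact_mod_cast hk
  have hk1 : (1 : ℝ) ≤ k := by exact_mod_cast hk
  set s : ℝ := 1 - 1 / k with hs
  have h0 : 0 ≤ s := by
    rw [hs, sub_nonneg, div_le_one hk0]
    exact hk1
  have h1 : s ≤ 1 := by
    rw [hs]
    have : (0 : ℝ) ≤ 1 / k := by positivity
    linarith
  have hsk : s ^ k ≤ 1 / 2 := by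
    have h2 : s ^ k ≤ Real.exp (-1) := Real.one_sub_div_pow_le_exp_neg hk1
    have h3 : Real.exp (-1) ≤ 1 / 2 := by
      rw [Real.exp_neg, one_div]
      refine inv_anti₀ (by norm_num) ?_
      have := Real.add_one_le_exp 1
      linarith
    exact h2.trans h3
  have h2 := stab_le hf h0 h1
  have h3 : Real.sqrt (1 - s) = 1 / Real.sqrt k := by
    rw [hs, sub_sub_cancel, Real.sqrt_div zero_le_one, Real.sqrt_one]
  rw [h3] at h2
  have h4 : (∑ S : Finset ι, if k < #S then fc f S ^ 2 else 0) ≤
      2 * ((∑ S : Finset ι, fc f S ^ 2) - ∑ S : Finset ι, s ^ #S * fc f S ^ 2) := by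
    rw [← Finset.sum_sub_distrib, Finset.mul_sum]
    refine Finset.sum_le_sum fun S _ => ?_
    have h5 : s ^ #S ≤ 1 := pow_le_one₀ h0 h1
    have h6 : 0 ≤ fc f S ^ 2 := sq_nonneg _
    split_ifs with h
    · have h7 : s ^ #S ≤ s ^ k := pow_le_pow_of_le_one h0 h1 h.le
      nlinarith
    · nlinarith
  have h5 : 4 * E / Real.sqrt k = 2 * (2 * E * (1 / Real.sqrt k)) := by ring
  rw [h5]
  linarith

end Vale.Agent.P325.H937.K2
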